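import Vale.Agent.P354KN.Poly
import Vale.Agent.P354K.Nw

/-!
The abstract iteration.
-/

open scoped ContDiff
open MeasureTheory Set Filter Topology

namespace Vale.Agent.P354KN

open Vale.Agent.P354H (X3 e pd pdl Sb pd_sm pdl_sm)
open Vale.Agent.P354K

abbrev TT : Type := Eq4 × Fin 4 → ℝ
abbrev JJ : Type := Jt → X3 → ℝ

theorem rec_sum {e : ℕ → ℝ} (he : Summable e) (e0 : ∀ k, 0 ≤ e k) {T0 : ℝ} (h0 : 0 ≤ T0) :
    ∃ S T : ℕ → ℝ, Summable T ∧ S 0 = 0 ∧ T 0 = T0 ∧ (∀ k, 0 ≤ S k ∧ 0 ≤ T k) ∧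
      ∀ k, S (k + 1) = S k + T k ∧ T (k + 1) = T k / 2 + e k * (1 + (S k + T k)) := by
  let p : ℕ → ℝ × ℝ := fun k => Nat.rec (0, T0)
    (fun k q => (q.1 + q.2, q.2 / 2 + e k * (1 + (q.1 + q.2)))) k
  have h1 : ∀ k, (p (k + 1)).1 = (p k).1 + (p k).2 := fun _ => rfl
  have h2 : ∀ k, (p (k + 1)).2 = (p k).2 / 2 + e k * (1 + ((p k).1 + (p k).2)) := fun _ => rfl
  have h : ∀ k, (0 ≤ (p k).1 ∧ 0 ≤ (p k).2) ∧ (p k).1 = ∑ i ∈ Finset.range k, (p i).2 ∧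
      1 + (p k).1 + 2 * (p k).2 ≤ (1 + 2 * T0) * Real.exp (2 * ∑ i ∈ Finset.range k, e i) := by
    intro k
    induction k with
    | zero => exact ⟨⟨le_rfl, h0⟩, rfl, by simp [p]⟩
    | succ k ih =>
      obtain ⟨⟨a, b⟩, c, d⟩ := ih
      have := e0 k
      rw [h1, h2, Finset.sum_range_succ, Finset.sum_range_succ, ← c, mul_add 2 _ (e k), Real.exp_add,
        ← mul_assoc]
      refine ⟨⟨by positivity, by positivity⟩, rfl, le_trans ?_
        (mul_le_mul d (Real.add_one_le_exp _) (by positivity) (by positivity))⟩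
      nlinarith [mul_nonneg this b]
  refine ⟨fun k => (p k).1, fun k => (p k).2, summable_of_sum_range_le (fun k => (h k).1.2)
    (c := (1 + 2 * T0) * Real.exp (2 * ∑' i, e i)) fun k => ?_, rfl, rfl, fun k => (h k).1,
    fun k => ⟨rfl, rfl⟩⟩
  obtain ⟨⟨a, b⟩, c, d⟩ := h k
  have : (1 + 2 * T0) * Real.exp (2 * ∑ i ∈ Finset.range k, e i) ≤
      (1 + 2 * T0) * Real.exp (2 * ∑' i, e i) := by
    gcongr
    exact he.sum_le_tsum _ fun i _ => e0 i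
  linarith

theorem fw_unif {κ : Type} [Fintype κ] {W : X3 → ℝ} {f : κ → X3 → ℝ} (h : ∀ k, Fw W (f k))
    (n : ℕ) : ∃ b, 0 ≤ b ∧ ∀ k, Nw W n (f k) b := by
  choose b hb using fun k => h k n
  exact ⟨∑ k, b k, Finset.sum_nonneg fun k _ => Nw.c0 (hb k), fun k => nw_mono (hb k) le_rfl
    (Finset.single_le_sum (fun k _ => Nw.c0 (hb k)) (Finset.mem_univ k))⟩

theorem fw_add {W f g : X3 → ℝ} (h : Fw W f) (h' : Fw W g) : Fw W (f + g) := fun n =>
  let ⟨_, a⟩ := h n; let ⟨_, b⟩ := h' n; ⟨_, nw_add a b⟩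

theorem dual_neg {ψ : X3 → ℝ} {f : Eq4 → X3 → ℝ} {M : ℝ} (h : Dual ψ f M) : Dual ψ (-f) M :=
  fun V c hV => by
    simpa only [Pi.neg_apply, neg_mul, integral_neg, Finset.sum_neg_distrib, abs_neg] using h V c hV

theorem iter {P : Type} {lc : Eq4 → Jt → P → X3 → ℝ} {ψ : X3 → ℝ} {E : Fin 4 → X3 → ℝ} {C0 : ℝ}
    {C : ℕ → ℝ} (hψ : Wt ψ) (hsol : Sol lc ψ E C0 C) (c0 : 0 ≤ C0) (hC : ∀ n, 0 ≤ C n) (r : P)
    (R : TT → JJ → Eq4 → X3 → ℝ) {n0 : ℕ} {ν s M τ σ β : ℝ} (hν : 0 < ν) (hM : 0 ≤ M)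
    (h1 : C0 * M ≤ ν * τ) (h2 : C n0 * s ≤ σ) (h3 : C0 * β ≤ 1 / 2)
    (i1 : ∀ k, Nw (sw ψ) n0 (R 0 0 k) s) (i2 : Dual ψ (R 0 0) M) (i3 : ∀ k, Fw (sw ψ) (R 0 0 k))
    (L1 : ∀ (t t' : TT) (v v' : JJ) x, 0 ≤ x → ‖t‖ ≤ 2 * τ → ‖t'‖ ≤ 2 * τ →
      (∀ y, Nw (ww ψ) n0 (v y) (2 * σ)) → (∀ y, Nw (ww ψ) n0 (v' y) (2 * σ)) → ‖t' - t‖ ≤ τ * x →
      (∀ y, Nw (ww ψ) n0 (v' y - v y) (σ * x)) →
      (∀ k, Nw (sw ψ) n0 (R t' v' k - R t v k) (s * (x / 2))) ∧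
        Dual ψ (R t' v' - R t v) (M * (x / 2)))
    (L2 : ∀ n, n0 ≤ n → ∀ B, 0 ≤ B → ∃ D, 0 ≤ D ∧ ∀ (t t' : TT) (v v' : JJ) δ, ‖t‖ ≤ 2 * τ →
      ‖t'‖ ≤ 2 * τ → (∀ y, Nw (ww ψ) n0 (v y) (2 * σ)) → (∀ y, Nw (ww ψ) n0 (v' y) (2 * σ)) →
      (∀ y, Nw (ww ψ) n (v y) B) → (∀ y, Nw (ww ψ) n (v' y) B) → ‖t' - t‖ ≤ δ →
      (∀ y, Nw (ww ψ) n (v' y - v y) δ) → (∀ k, Nw (sw ψ) n (R t' v' k - R t v k) (D * δ)) ∧
        ∀ T T', 0 ≤ T → (∀ y, Tw (ww ψ) (n + 1) (v y) T) → (∀ y, Tw (ww ψ) (n + 1) (v' y) T) →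
          (∀ y, Tw (ww ψ) (n + 1) (v' y - v y) T') →
          ∀ k, Tw (sw ψ) (n + 1) (R t' v' k - R t v k) (β * T' + D * δ * (1 + T)))
    (L3 : ∀ (t : ℕ → TT) (v : ℕ → JJ) t' (v' : JJ), Tendsto t atTop (𝓝 t') →
      (∀ x z, Tendsto (fun i => v i x z) atTop (𝓝 (v' x z))) →
      ∀ k z, Tendsto (fun i => R (t i) (v i) k z) atTop (𝓝 (R t' v' k z))) :
    ∃ (t : TT) (v : JJ), ‖t‖ ≤ 2 * τ ∧ Adm v ∧ (∀ x, Fw (ww ψ) (v x)) ∧
      (∀ x, Nw (ww ψ) n0 (v x) (2 * σ)) ∧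
      ∀ k z, Lin lc r v k z + ν * ∑ s, t (k, s) * E s z + R t v k z = 0 := by
  choose! J Θ hA hL hN hT hD using hsol r
  have s0 : 0 ≤ s := Nw.c0 (i1 none)
  have τ0 : 0 ≤ τ := nonneg_of_mul_nonneg_right ((mul_nonneg c0 hM).trans h1) hν
  have σ0 : 0 ≤ σ := (mul_nonneg (hC _) s0).trans h2
  obtain ⟨t, v, d, t0, v0, d0, ht, hv, hd⟩ : ∃ (t : ℕ → TT) (v : ℕ → JJ) (d : ℕ → Eq4 → X3 → ℝ),
      t 0 = 0 ∧ v 0 = 0 ∧ d 0 = -R 0 0 ∧ (∀ i, t (i + 1) = t i + ν⁻¹ • Θ (d i)) ∧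
      (∀ i, v (i + 1) = v i + J (d i)) ∧
      ∀ i, d (i + 1) = R (t i) (v i) - R (t (i + 1)) (v (i + 1)) := by
    let p : ℕ → TT × JJ × (Eq4 → X3 → ℝ) := fun i => Nat.rec (0, 0, -R 0 0)
      (fun _ q => (q.1 + ν⁻¹ • Θ q.2.2, q.2.1 + J q.2.2,
        R q.1 q.2.1 - R (q.1 + ν⁻¹ • Θ q.2.2) (q.2.1 + J q.2.2))) i
    exact ⟨fun i => (p i).1, fun i => (p i).2.1, fun i => (p i).2.2, rfl, rfl, rfl, fun _ => rfl,
      fun _ => rfl, fun _ => rfl⟩
  have et : ∀ i, t i - t (i + 1) = -(ν⁻¹ • Θ (d i)) := fun i => by rw [ht]; abel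
  have ev' : ∀ i y, v i y - v (i + 1) y = -J (d i) y := fun i y => by rw [hv, Pi.add_apply]; abel
  have st : ∀ f x, (∀ k, Fw (sw ψ) (f k)) → 0 ≤ x → (∀ k, Nw (sw ψ) n0 (f k) (s * x)) →
      Dual ψ f (M * x) → ‖ν⁻¹ • Θ f‖ ≤ τ * x ∧ (∀ y, Nw (ww ψ) n0 (J f y) (σ * x)) ∧
        ∀ y, Fw (ww ψ) (J f y) := fun f x hf hx a b => by
    refine ⟨(pi_norm_le_iff_of_nonneg (mul_nonneg τ0 hx)).2 fun q => ?_, fun y => nw_mono
      (hN f hf n0 _ a y) le_rfl (by rw [← mul_assoc]; gcongr), fun y n => ?_⟩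
    · rw [Pi.smul_apply, smul_eq_mul, Real.norm_eq_abs, abs_mul, abs_of_pos (inv_pos.2 hν),
        inv_mul_le_iff₀ hν]
      refine (hD f hf _ (mul_nonneg hM hx) b q).trans ?_
      rw [← mul_assoc, ← mul_assoc]; gcongr
    · obtain ⟨b, -, hb⟩ := fw_unif hf n
      exact ⟨_, hN f hf n b hb y⟩
  have hp : ∀ i : ℕ, (0 : ℝ) ≤ (1 / 2) ^ i := fun i => by positivity
  have I : ∀ i, (∀ y, Fw (ww ψ) (v i y)) ∧ (∀ k, Fw (sw ψ) (d i k)) ∧
      (∀ k, Nw (sw ψ) n0 (d i k) (s * (1 / 2) ^ i)) ∧ Dual ψ (d i) (M * (1 / 2) ^ i) ∧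
      ‖t i‖ ≤ 2 * τ * (1 - (1 / 2) ^ i) ∧
      ∀ y, Nw (ww ψ) n0 (v i y) (2 * σ * (1 - (1 / 2) ^ i)) := fun i => by
    induction i with
    | zero =>
      rw [t0, v0, d0]
      exact ⟨fun _ _ => ⟨0, nw_zero le_rfl⟩, fun k n => (i3 k n).imp fun _ h => nw_neg h,
        fun k => by simpa using nw_neg (i1 k), by simpa using dual_neg i2, by simp,
        fun _ => nw_zero (by simp)⟩
    | succ i ih =>
      obtain ⟨a1, a2, a3, a4, a5, a6⟩ := ih
      obtain ⟨b1, b2, b3⟩ := st _ _ a2 (hp i) a3 a4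
      have f1 : ∀ y, Fw (ww ψ) (v (i + 1) y) := fun y => by rw [hv]; exact fw_add (a1 y) (b3 y)
      have f5 : ‖t (i + 1)‖ ≤ 2 * τ * (1 - (1 / 2) ^ (i + 1)) := by
        rw [ht]
        exact (norm_add_le_of_le a5 b1).trans (le_of_eq (by ring))
      have f6 : ∀ y, Nw (ww ψ) n0 (v (i + 1) y) (2 * σ * (1 - (1 / 2) ^ (i + 1))) := fun y => by
        rw [hv]
        exact nw_mono (nw_add (a6 y) (b2 y)) le_rfl (le_of_eq (by ring))
      have w : ∀ {a : ℝ} j, 0 ≤ a → 2 * a * (1 - (1 / 2) ^ j) ≤ 2 * a := fun j h => by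
        nlinarith [mul_nonneg h (hp j)]
      have g1 := a5.trans (w _ τ0)
      have g2 := f5.trans (w _ τ0)
      have g3 := fun y => nw_mono (a6 y) le_rfl (w _ σ0)
      have g4 := fun y => nw_mono (f6 y) le_rfl (w _ σ0)
      obtain ⟨c1, c2⟩ := L1 _ _ _ _ _ (hp i) g2 g1 g4 g3 (by rwa [et, norm_neg])
        fun y => by rw [ev']; exact nw_neg (b2 y)
      rw [hd, pow_succ, mul_one_div]
      refine ⟨f1, fun k n => ?_, c1, c2, by rwa [← mul_one_div, ← pow_succ],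
        by rwa [← mul_one_div, ← pow_succ]⟩
      obtain ⟨B, B0, hB⟩ := fw_unif a1 (max n n0)
      obtain ⟨B', B0', hB'⟩ := fw_unif b3 (max n n0)
      obtain ⟨D, -, hD⟩ := L2 _ (le_max_right n n0) (B + B') (by positivity)
      exact ⟨_, nw_mono ((hD _ _ _ _ (B' + ‖t i - t (i + 1)‖) g2 g1 g4 g3
        (fun y => by rw [hv]; exact nw_add (hB y) (hB' y))
        (fun y => nw_mono (hB y) le_rfl (by linarith)) (by linarith) fun y => by
          rw [ev']; exact nw_mono (nw_neg (hB' y)) le_rfl (by simp)).1 k) (le_max_left _ _) le_rfl⟩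
  have S := fun i => st _ _ (I i).2.1 (hp i) (I i).2.2.1 (I i).2.2.2.1
  have g1 : ∀ i, ‖t i‖ ≤ 2 * τ := fun i => (I i).2.2.2.2.1.trans (by nlinarith [mul_nonneg τ0 (hp i)])
  have g3 : ∀ i y, Nw (ww ψ) n0 (v i y) (2 * σ) := fun i y =>
    nw_mono ((I i).2.2.2.2.2 y) le_rfl (by nlinarith [mul_nonneg σ0 (hp i)])
  have H : ∀ n, n0 ≤ n → ∃ c : ℕ → ℝ, Summable c ∧ ∀ i y, Nw (ww ψ) n (J (d i) y) (c i) := by
    intro n hn
    induction n, hn using Nat.le_induction with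
    | base => exact ⟨_, summable_geometric_two.mul_left σ, fun i => (S i).2.1⟩
    | succ n hn ih =>
      obtain ⟨c, c1, c2⟩ := ih
      have c3 : ∀ i, 0 ≤ c i := fun i => Nw.c0 (c2 i (.h 0 0))
      have hB : ∀ i y, Nw (ww ψ) n (v i y) (∑' j, c j) := fun i y => by
        refine nw_mono (a := ∑ j ∈ Finset.range i, c j) ?_ le_rfl (c1.sum_le_tsum _ fun i _ => c3 i)
        induction i with
        | zero => rw [v0]; exact nw_zero (by simp)
        | succ i ih => rw [hv, Finset.sum_range_succ]; exact nw_add ih (c2 i y)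
      obtain ⟨D, D0, hD⟩ := L2 n hn _ (tsum_nonneg c3)
      obtain ⟨T0, T1, T2⟩ := fw_unif (S 0).2.2 (n + 1)
      have cn := hC n
      obtain ⟨U, T, u1, u2, u3, u4, u5⟩ := rec_sum (e := fun i => (C0 + C n) * D * (τ * (1 / 2) ^ i + c i))
        (((summable_geometric_two.mul_left τ).add c1).mul_left _)
        (fun i => by have := c3 i; positivity) T1
      have K : ∀ i, (∀ y, Tw (ww ψ) (n + 1) (v i y) (U i)) ∧
          ∀ y, Tw (ww ψ) (n + 1) (J (d i) y) (T i) := fun i => by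
        induction i with
        | zero => rw [v0, u2, u3]; exact ⟨fun _ => tw_zero le_rfl, fun y => nw_tw (T2 y)⟩
        | succ i ih =>
          have k1 : ∀ y, Tw (ww ψ) (n + 1) (v (i + 1) y) (U i + T i) := fun y => by
            rw [hv]; exact tw_add (hB i y).1 (c2 i y).1 (ih.1 y) (ih.2 y)
          obtain ⟨u6, u7⟩ := u4 i
          have c4 := c3 i
          have c5 := mul_nonneg τ0 (hp i)
          obtain ⟨m1, m2⟩ := hD _ _ _ _ (τ * (1 / 2) ^ i + c i) (g1 (i + 1)) (g1 i) (g3 _) (g3 _)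
            (hB _) (hB _) (by rw [et, norm_neg]; linarith [(S i).1]) fun y => by
              rw [ev']; exact nw_mono (nw_neg (c2 i y)) le_rfl (by linarith)
          have m3 := m2 (U i + T i) (T i) (by positivity) k1
            (fun y => tw_mono (ih.1 y) (by linarith)) fun y => by
              rw [ev']; exact tw_neg (c2 i y).1 (ih.2 y)
          rw [(u5 i).1, (u5 i).2]
          refine ⟨k1, fun y => tw_mono (hT _ (I (i + 1)).2.1 n _ _ (by rw [hd]; exact m3)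
            (by rw [hd]; exact m1) y) ?_⟩
          have : 0 ≤ C n * D * (τ * (1 / 2) ^ i + c i) * (U i + T i) := by positivity
          nlinarith [mul_le_mul_of_nonneg_right h3 u7]
      exact ⟨_, c1.add u1, fun i y => nw_succ (c2 i y) ((K i).2 y)⟩
  have H' : ∀ y n, ∃ c : ℕ → ℝ, Summable c ∧ ∀ i, Nw (ww ψ) n (J (d i) y) (c i) := fun y n =>
    (H _ (le_max_right n n0)).imp fun c h => ⟨h.1, fun i => nw_mono (h.2 i y) (le_max_left _ _) le_rfl⟩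
  choose g q1 q2 q3 using fun y => lim _ hψ.ww (fun i => J (d i) y) (H' y)
  have q4 : ∀ y n (c : ℕ → ℝ), Summable c → (∀ i, Nw (ww ψ) n (J (d i) y) (c i)) →
      Nw (ww ψ) n (g y) (∑' i, c i) := fun y n c a b =>
    ⟨q1 y, fun α hα => q3 y α c a fun i => (b i).2 α hα⟩
  have hE : ∀ x y, (∀ i, J (d i) x = J (d i) y) → g x = g y := fun x y h => funext fun z =>
    (q2 x [] z).unique (by simp only [h]; exact q2 y [] z)
  have hE' : ∀ x y j, (∀ i, J (d i) x = D j (J (d i) y)) → g x = D j (g y) := fun x y j h =>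
    funext fun z => (q2 x [] z).unique (by
      simp only [h]
      exact (q2 y [j] z).mul_left (gz j z))
  have A := fun i => hA _ (I i).2.1
  obtain ⟨u, hu⟩ : Summable fun i => ν⁻¹ • Θ (d i) :=
    .of_norm_bounded (summable_geometric_two.mul_left τ) fun i => (S i).1
  have l1 : Tendsto t atTop (𝓝 u) := hu.tendsto_sum_nat.congr fun i => by
    induction i with
    | zero => simp [t0]
    | succ i ih => rw [ht, Finset.sum_range_succ, ih]
  have l2 : ∀ x z, Tendsto (fun i => v i x z) atTop (𝓝 (g x z)) := fun x z =>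
    (q2 x [] z).tendsto_sum_nat.congr fun i => by
      induction i with
      | zero => simp [v0]
      | succ i ih => rw [hv, Finset.sum_range_succ, ih]; rfl
  refine ⟨u, g, le_of_tendsto' l1.norm g1, ⟨q1, fun a b => hE _ _ fun i => (A i).hs a b,
    fun a b => hE _ _ fun i => (A i).ps a b, fun j a b => hE' _ _ _ fun i => (A i).dh j a b,
    fun j k a b => hE' _ _ _ fun i => (A i).ddh j k a b,
    fun j a b => hE' _ _ _ fun i => (A i).dp j a b⟩,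
    fun y n => let ⟨c, a, b⟩ := H' y n; ⟨_, q4 y n c a b⟩, fun y => nw_mono (q4 y n0 _
      (summable_geometric_two.mul_left σ) fun i => (S i).2.1 y) le_rfl ?_, fun k z => ?_⟩
  · rw [tsum_mul_left, tsum_geometric_two, mul_comm]
  have inv : ∀ i, Lin lc r (v i) k z + ν * ∑ s, t i (k, s) * E s z + R (t i) (v i) k z +
      d i k z = 0 := fun i => by
    induction i with
    | zero => simp [t0, v0, d0, Lin]
    | succ i ih =>
      have e1 : Lin lc r (v (i + 1)) k z = Lin lc r (v i) k z + Lin lc r (J (d i)) k z := by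
        simp only [hv, Lin, Pi.add_apply, mul_add, Finset.sum_add_distrib]
      have e2 : ν * ∑ s, t (i + 1) (k, s) * E s z =
          ν * ∑ s, t i (k, s) * E s z + ∑ s, Θ (d i) (k, s) * E s z := by
        simp only [ht, Pi.add_apply, Pi.smul_apply, smul_eq_mul, add_mul, Finset.sum_add_distrib,
          mul_add, mul_assoc, ← Finset.mul_sum, mul_inv_cancel_left₀ hν.ne']
      rw [e1, e2, hL _ (I i).2.1, hd]
      simp only [Pi.sub_apply]
      linarith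
  have l3 := L3 t v u g l1 l2 k z
  have l4 : Tendsto (fun i => d i k z) atTop (𝓝 0) := by
    rw [← tendsto_add_atTop_iff_nat 1]
    simpa only [hd, Pi.sub_apply, sub_self] using l3.sub ((tendsto_add_atTop_iff_nat 1).2 l3)
  have l5 : Tendsto (fun i => Lin lc r (v i) k z) atTop (𝓝 (Lin lc r g k z)) :=
    tendsto_finsetSum _ fun x _ => (l2 x z).const_mul _
  have l6 : Tendsto (fun i => ν * ∑ s, t i (k, s) * E s z) atTop (𝓝 (ν * ∑ s, u (k, s) * E s z)) :=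
    (tendsto_finsetSum _ fun q _ => (tendsto_pi_nhds.1 l1 (k, q)).mul_const _).const_mul _
  have := ((l5.add l6).add l3).add l4
  simp only [inv, add_zero] at this
  exact tendsto_nhds_unique this tendsto_const_nhds ▸ rfl

end Vale.Agent.P354KN
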