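import Vale.Agent.P354KN.Tool

/-!
Polynomials in finitely many fields: size and difference estimates in weighted norms.
-/

open scoped ContDiff
open MeasureTheory Set Filter Topology

namespace Vale.Agent.P354KN

open Vale.Agent.P354H (X3 e pd pdl Sb pd_sm pdl_sm)
open Vale.Agent.P354K

variable {P ι : Type} {W S : X3 → ℝ}

inductive PP {P ι : Type} : ℕ → (P → X3 → (ι → ℝ) → ℝ) → Prop
  | coef {c : P → X3 → ℝ} : UB c → PP 0 fun r z _ => c r z
  | zero (n : ℕ) : PP n fun _ _ _ => 0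
  | var (x : ι) : PP 1 fun _ _ v => v x
  | add {n F G} : PP n F → PP n G → PP n fun r z v => F r z v + G r z v
  | mul {n m F G} : PP n F → PP m G → PP (n + m) fun r z v => F r z v * G r z v
  | mono {n m F} : PP n F → m ≤ n → PP m F

theorem pp_of {n : ℕ} {F : P → X3 → (Jt → ℝ) → ℝ} (h : Pol n F) : PP n F := by
  induction h with
  | coef h => exact .coef h.ub
  | zero n => exact .zero n
  | var x => exact .var x
  | add _ _ a b => exact .add a b
  | mul _ _ a b => exact .mul a b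
  | mono _ h a => exact .mono a h

theorem PP.re {P' ι' : Type} {n : ℕ} {F : P → X3 → (ι → ℝ) → ℝ} (h : PP n F) (f : P' → P)
    (g : ι → ι') : PP n fun r z w => F (f r) z fun x => w (g x) := by
  induction h with
  | coef h => exact .coef (h.re f)
  | zero n => exact .zero n
  | var x => exact .var (g x)
  | add _ _ a b => exact .add a b
  | mul _ _ a b => exact .mul a b
  | mono _ h a => exact .mono a h

theorem PP.cont {n : ℕ} {F : P → X3 → (ι → ℝ) → ℝ} (h : PP n F) (r : P) (z : X3) :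
    Continuous (F r z) := by
  induction h with
  | coef h => exact continuous_const
  | zero n => exact continuous_const
  | var x => exact continuous_apply x
  | add _ _ a b => exact a.add b
  | mul _ _ a b => exact a.mul b
  | mono _ h a => exact a

theorem PP.at0 {n : ℕ} {F : P → X3 → (ι → ℝ) → ℝ} (h : PP n F) (hn : 1 ≤ n) (r : P) (z : X3) :
    F r z 0 = 0 := by
  induction h with
  | coef h => omega
  | zero n => rfl
  | var x => rfl
  | add _ _ a b => simp [a hn, b hn]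
  | @mul n m _ _ _ _ a b =>
    by_cases k : 1 ≤ n
    · simp [a k]
    · simp [b (by omega)]
  | mono _ h a => exact a (hn.trans h)

theorem PP.sum {κ : Type} {n : ℕ} (s : Finset κ) {F : κ → P → X3 → (ι → ℝ) → ℝ}
    (h : ∀ k, PP n (F k)) : PP n fun r z w => ∑ k ∈ s, F k r z w := by
  classical
  induction s using Finset.induction_on with
  | empty => simpa using PP.zero n
  | insert a s ha ih => simpa only [Finset.sum_insert ha] using (h a).add ih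

theorem PP.fam {κ : Type} [Fintype κ] {n : ℕ} {F : κ → P → X3 → (ι → ℝ) → ℝ}
    (h : ∀ k, PP n (F k)) : PP n fun p : κ × P => F p.1 p.2 := by
  classical
  have := PP.sum Finset.univ fun k => (PP.coef (ι := ι) (ub_const (P := κ × P)
    (a := fun p => if p.1 = k then 1 else 0) ⟨1, fun p => by split_ifs <;> simp⟩)).mul
      ((h k).re Prod.snd id)
  simpa using this

theorem PP.diff [Fintype ι] {n : ℕ} {F : P → X3 → (ι → ℝ) → ℝ} (h : PP n F) :
    ∃ G : ι → P → X3 → (ι ⊕ ι → ℝ) → ℝ, (∀ x, PP (n - 1) (G x)) ∧ ∀ r z w,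
      F r z (fun x => w (.inr x)) - F r z (fun x => w (.inl x)) =
        ∑ x, (w (.inr x) - w (.inl x)) * G x r z w := by
  classical
  induction h with
  | coef h => exact ⟨fun _ _ _ _ => 0, fun _ => .zero _, by simp⟩
  | zero n => exact ⟨fun _ _ _ _ => 0, fun _ => .zero _, by simp⟩
  | var x => exact ⟨fun y _ _ _ => if y = x then 1 else 0, fun _ => .coef (ub_c _), by simp⟩
  | add _ _ a b =>
    obtain ⟨G, g1, g2⟩ := a
    obtain ⟨H, h1, h2⟩ := b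
    refine ⟨fun x r z w => G x r z w + H x r z w, fun x => (g1 x).add (h1 x), fun r z w => ?_⟩
    simp only [mul_add, Finset.sum_add_distrib, ← g2, ← h2]
    ring
  | @mul n m F F' p q a b =>
    obtain ⟨G, g1, g2⟩ := a
    obtain ⟨H, h1, h2⟩ := b
    refine ⟨fun x r z w => G x r z w * F' r z (fun x => w (.inr x)) +
      F r z (fun x => w (.inl x)) * H x r z w, fun x => .add
        (((g1 x).mul (q.re id .inr)).mono (by omega)) (((p.re id .inl).mul (h1 x)).mono (by omega)),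
      fun r z w => ?_⟩
    have e : ∀ x, (w (.inr x) - w (.inl x)) * (G x r z w * F' r z (fun x => w (.inr x)) +
        F r z (fun x => w (.inl x)) * H x r z w) =
        (w (.inr x) - w (.inl x)) * G x r z w * F' r z (fun x => w (.inr x)) +
        F r z (fun x => w (.inl x)) * ((w (.inr x) - w (.inl x)) * H x r z w) := fun x => by ring
    simp only [e, Finset.sum_add_distrib, ← Finset.sum_mul, ← Finset.mul_sum, ← g2, ← h2]
    ring
  | mono _ h a => exact a.imp fun G g => ⟨fun x => (g.1 x).mono (by omega), g.2⟩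

/-- The polynomial evaluated on the fields u. -/
def ev (F : P → X3 → (ι → ℝ) → ℝ) (r : P) (u : ι → X3 → ℝ) (z : X3) : ℝ := F r z fun x => u x z

/-- The size estimate for polynomials without constant term. -/
def E1 (W : X3 → ℝ) (F : P → X3 → (ι → ℝ) → ℝ) : Prop :=
  ∀ n, 7 ≤ n → ∀ R : ℝ, ∃ C, 0 ≤ C ∧ ∀ r u ρ, 0 ≤ ρ → ρ ≤ R → (∀ x, Nw W n (u x) ρ) →
    Nw W n (ev F r u) (C * ρ) ∧ ∀ T, 0 ≤ T → (∀ x, Tw W (n + 1) (u x) T) →
      Tw W (n + 1) (ev F r u) (C * (ρ + T))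

theorem e1_zero : E1 W fun (_ : P) _ (_ : ι → ℝ) => 0 := fun _ _ _ =>
  ⟨0, le_rfl, fun _ _ _ _ _ _ => ⟨nw_zero (by simp), fun _ _ _ => tw_zero (by simp)⟩⟩

theorem e1_var (x : ι) : E1 W fun (_ : P) _ v => v x := fun _ _ _ =>
  ⟨1, zero_le_one, fun _ _ _ h _ H => ⟨nw_mono (H x) le_rfl (by simp), fun _ _ H' =>
    tw_mono (H' x) (by simpa using h)⟩⟩

theorem E1.add {F G : P → X3 → (ι → ℝ) → ℝ} (h : E1 W F) (h' : E1 W G) :
    E1 W fun r z v => F r z v + G r z v := fun n hn R => by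
  obtain ⟨C, c0, hC⟩ := h n hn R
  obtain ⟨C', c0', hC'⟩ := h' n hn R
  refine ⟨C + C', add_nonneg c0 c0', fun r u ρ r0 rR H => ?_⟩
  obtain ⟨a1, a2⟩ := hC r u ρ r0 rR H
  obtain ⟨b1, b2⟩ := hC' r u ρ r0 rR H
  exact ⟨nw_mono (nw_add a1 b1) le_rfl (by rw [add_mul]), fun T t0 HT =>
    tw_mono (tw_add a1.1 b1.1 (a2 T t0 HT) (b2 T t0 HT)) (by rw [add_mul])⟩

theorem E1.coef (hW : LW W) {c : P → X3 → ℝ} (hc : UB c) {F : P → X3 → (ι → ℝ) → ℝ} (h : E1 W F) :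
    E1 W fun r z v => c r z * F r z v := fun n hn R => by
  obtain ⟨C, c0, hC⟩ := h n hn R
  obtain ⟨a, a0, ha⟩ := hc.sb (n + 1)
  refine ⟨(1 + 2 ^ (n + 1)) * a * C, by positivity, fun r u ρ r0 rR H => ?_⟩
  obtain ⟨a1, a2⟩ := hC r u ρ r0 rR H
  have p : 0 ≤ a * (C * ρ) := by positivity
  have q : (0 : ℝ) < 2 ^ n := by positivity
  refine ⟨nw_mono (P354KN.coef hW (hc.1 r) ((ha r).mono (Nat.le_succ n) le_rfl) a1) le_rfl ?_,
    fun T t0 HT => tw_mono (coefT hW (hc.1 r) ((ha r).mono (Nat.zero_le _) le_rfl) (ha r) a1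
      (a2 T t0 HT)) ?_⟩
  · rw [pow_succ]; nlinarith [mul_nonneg q.le p]
  · have : 0 ≤ 2 ^ (n + 1) * a * (C * T) := by positivity
    nlinarith

theorem E1.mul (hs : SOBW) (hW : LW W) {A : ℝ} (hA : 0 ≤ A) (hw : ∀ z, W z ≤ A * (W z * W z))
    {F G : P → X3 → (ι → ℝ) → ℝ} (h : E1 W F) (h' : E1 W G) :
    E1 W fun r z v => F r z v * G r z v := fun n hn R => by
  obtain ⟨C, c0, hC⟩ := h n hn R
  obtain ⟨C', c0', hC'⟩ := h' n hn R
  obtain ⟨B, b0, hB⟩ := prod hs hW hW hA hw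
  refine ⟨(2 + 2 ^ (n + 1)) * (B * C * C') * |R|, by positivity, fun r u ρ r0 rR H => ?_⟩
  obtain ⟨a1, a2⟩ := hC r u ρ r0 rR H
  obtain ⟨b1, b2⟩ := hC' r u ρ r0 rR H
  obtain ⟨c1, c2⟩ := hB n _ _ _ _ hn a1 b1
  have rr : ρ ≤ |R| := rR.trans (le_abs_self R)
  have q : (0 : ℝ) < 2 ^ n := by positivity
  set D := B * C * C' with hD
  have d0 : 0 ≤ D := by positivity
  refine ⟨nw_mono c1 le_rfl ?_, fun T t0 HT => tw_mono (c2 _ _ _ _ (nw_mono a1 (by omega) le_rfl)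
    (nw_mono b1 (by omega) le_rfl) (a2 T t0 HT) (b2 T t0 HT)) ?_⟩
  · calc _ = 2 ^ n * D * ρ * ρ := by rw [hD]; ring
      _ ≤ (2 + 2 ^ (n + 1)) * D * |R| * ρ := by
        gcongr
        rw [pow_succ]; linarith
  · calc _ = 2 * D * ρ * (ρ + T) + 2 ^ (n + 1) * D * ρ * ρ := by rw [hD]; ring
      _ ≤ 2 * D * |R| * (ρ + T) + 2 ^ (n + 1) * D * |R| * (ρ + T) := by
        gcongr
        linarith
      _ = _ := by ring

section
variable (hs : SOBW) (hW : LW W) {A : ℝ} (hA : 0 ≤ A) (hw : ∀ z, W z ≤ A * (W z * W z))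
include hs hW hA hw

theorem PP.size {n : ℕ} {F : P → X3 → (ι → ℝ) → ℝ} (h : PP n F) :
    ∃ (c : P → X3 → ℝ) (G : P → X3 → (ι → ℝ) → ℝ), UB c ∧ (1 ≤ n → c = fun _ _ => 0) ∧ E1 W G ∧
      F = fun r z v => c r z + G r z v := by
  induction h with
  | coef h => exact ⟨_, _, h, fun h => by omega, e1_zero, by simp⟩
  | zero n => exact ⟨_, _, ub_c 0, fun _ => rfl, e1_zero, by simp⟩
  | var x => exact ⟨_, _, ub_c 0, fun _ => rfl, e1_var x, by simp⟩
  | add _ _ a b =>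
    obtain ⟨c, G, c1, c2, c3, rfl⟩ := a
    obtain ⟨d, H, d1, d2, d3, rfl⟩ := b
    exact ⟨_, _, c1.add d1, fun h => by simp [c2 h, d2 h], c3.add d3, by funext r z v; ring⟩
  | @mul n m _ _ _ _ a b =>
    obtain ⟨c, G, c1, c2, c3, rfl⟩ := a
    obtain ⟨d, H, d1, d2, d3, rfl⟩ := b
    refine ⟨_, _, c1.mul d1, fun h => ?_, ((d3.coef hW c1).add (c3.coef hW d1)).add
      (c3.mul hs hW hA hw d3), by funext r z v; ring⟩
    by_cases k : 1 ≤ n
    · simp [c2 k]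
    · simp [d2 (by omega)]
  | mono _ h a =>
    obtain ⟨c, G, c1, c2, c3, e⟩ := a
    exact ⟨c, G, c1, fun k => c2 (k.trans h), c3, e⟩

theorem PP.e1 {F : P → X3 → (ι → ℝ) → ℝ} (h : PP 1 F) : E1 W F := by
  obtain ⟨c, G, -, c2, c3, rfl⟩ := h.size hs hW hA hw
  simpa [c2 le_rfl] using c3

end

theorem nw_sumc {κ : Type} [Fintype κ] {k : ℕ} {F : κ → X3 → ℝ} {c : ℝ}
    (H : ∀ i, Nw W k (F i) c) : Nw W k (∑ i, F i) (Fintype.card κ * c) := by
  simpa using nw_sum Finset.univ (c := fun _ => c) fun i _ => H i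

theorem tw_sumc {κ : Type} [Fintype κ] {k : ℕ} {F : κ → X3 → ℝ} {c : ℝ}
    (h : ∀ i, ContDiff ℝ ∞ (F i)) (H : ∀ i, Tw W k (F i) c) :
    Tw W k (∑ i, F i) (Fintype.card κ * c) := by
  classical
  have : ∀ s : Finset κ, ContDiff ℝ ∞ (∑ i ∈ s, F i) ∧ Tw W k (∑ i ∈ s, F i) (s.card * c) := by
    intro s
    induction s using Finset.induction_on with
    | empty => exact ⟨contDiff_const, by simpa using tw_zero le_rfl⟩
    | insert i s hi ih =>
      rw [Finset.sum_insert hi, Finset.card_insert_of_notMem hi]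
      exact ⟨(h i).add ih.1, tw_mono (tw_add (h i) ih.1 (H i) ih.2) (by push_cast; linarith)⟩
  exact (this Finset.univ).2

theorem ev_diff [Fintype ι] {F : P → X3 → (ι → ℝ) → ℝ} {G : ι → P → X3 → (ι ⊕ ι → ℝ) → ℝ}
    (h : ∀ r z w, F r z (fun x => w (.inr x)) - F r z (fun x => w (.inl x)) =
        ∑ x, (w (.inr x) - w (.inl x)) * G x r z w) (r : P) (u u' : ι → X3 → ℝ) :
    ev F r u' - ev F r u = ∑ x, (u' x - u x) * ev (G x) r (Sum.elim u u') := by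
  funext z
  rw [Finset.sum_apply]
  exact h r z fun y => Sum.elim u u' y z

theorem el {α : Type} {p : α → Prop} {u u' : ι → α} (h : ∀ x, p (u x)) (h' : ∀ x, p (u' x)) :
    ∀ y, p (Sum.elim u u' y) := fun y => by cases y with
  | inl x => exact h x
  | inr x => exact h' x

section
variable [Fintype ι] (hs : SOBW) (hW : LW W) {A : ℝ} (hA : 0 ≤ A)
  (hw : ∀ z, W z ≤ A * (W z * W z))
include hs hW hA hw

theorem PP.lip {d : ℕ} {F : P → X3 → (ι → ℝ) → ℝ} (h : PP d F) {n : ℕ} (hn : 7 ≤ n) :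
    ∃ C, 0 ≤ C ∧ ∀ r u u' δ, (∀ x, Nw W n (u x) 1) → (∀ x, Nw W n (u' x) 1) →
      (∀ x, Nw W n (u' x - u x) δ) → Nw W n (ev F r u' - ev F r u) (C * δ) := by
  obtain ⟨G, g1, g2⟩ := h.diff
  obtain ⟨c, H, c1, -, c3, e⟩ := (PP.fam g1).size hs hW hA hw
  obtain ⟨C, c0, hC⟩ := c3 n hn 1
  obtain ⟨a, a0, ha⟩ := c1.sb n
  obtain ⟨B, b0, hB⟩ := prod hs hW hW hA hw
  refine ⟨Fintype.card ι * (2 ^ n * a + 2 ^ n * B * C), by positivity, fun r u u' δ H1 H2 H3 => ?_⟩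
  rw [ev_diff g2, mul_assoc]
  refine nw_sumc fun x => ?_
  have k : (u' x - u x) * ev (G x) r (Sum.elim u u') =
      c (x, r) * (u' x - u x) + (u' x - u x) * ev H (x, r) (Sum.elim u u') := by
    funext z
    have := congrFun (congrFun (congrFun e (x, r)) z) fun y => Sum.elim u u' y z
    simp only [Pi.mul_apply, Pi.add_apply, ev] at this ⊢
    rw [this]; ring
  rw [k]
  exact nw_mono (nw_add (P354KN.coef hW (c1.1 _) (ha _) (H3 x)) (hB n _ _ _ _ hn (H3 x)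
    (hC (x, r) _ 1 zero_le_one le_rfl (el (p := fun g => Nw W n g 1) H1 H2)).1).1) le_rfl
    (le_of_eq (by ring))

variable (hS : LW S) (hw' : ∀ z, S z ≤ A * (W z * W z)) {F : P → X3 → (ι → ℝ) → ℝ} (h : PP 2 F)
include hS hw' h

theorem PP.dq {n : ℕ} (hn : 7 ≤ n) (R : ℝ) :
    ∃ C, 0 ≤ C ∧ ∀ r u u' ρ δ, 0 ≤ ρ → ρ ≤ R → (∀ x, Nw W n (u x) ρ) → (∀ x, Nw W n (u' x) ρ) →
      (∀ x, Nw W n (u' x - u x) δ) → Nw S n (ev F r u' - ev F r u) (C * ρ * δ) := by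
  obtain ⟨G, g1, g2⟩ := h.diff
  obtain ⟨C, c0, hC⟩ := (PP.fam g1).e1 hs hW hA hw n hn R
  obtain ⟨B, b0, hB⟩ := prod hs hW hS hA hw'
  refine ⟨Fintype.card ι * (2 ^ n * B * C), by positivity, fun r u u' ρ δ r0 rR H1 H2 H3 => ?_⟩
  rw [ev_diff g2, mul_assoc, mul_assoc]
  exact nw_sumc fun x => nw_mono (hB n _ _ _ _ hn (H3 x)
    (hC (x, r) _ ρ r0 rR (el (p := fun g => Nw W n g ρ) H1 H2)).1).1 le_rfl (le_of_eq (by ring))

theorem PP.dqT : ∃ C0, 0 ≤ C0 ∧ ∀ n, 7 ≤ n → ∀ R, 0 ≤ R → ∃ C, 0 ≤ C ∧ ∀ r u u' ρ δ T τ,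
    0 ≤ ρ → ρ ≤ 1 → 0 ≤ δ → 0 ≤ T → (∀ x, Nw W 7 (u x) ρ) → (∀ x, Nw W 7 (u' x) ρ) →
      (∀ x, Nw W n (u x) R) → (∀ x, Nw W n (u' x) R) → (∀ x, Nw W n (u' x - u x) δ) →
      (∀ x, Tw W (n + 1) (u x) T) → (∀ x, Tw W (n + 1) (u' x) T) →
      (∀ x, Tw W (n + 1) (u' x - u x) τ) →
      Tw S (n + 1) (ev F r u' - ev F r u) (C0 * ρ * τ + C * δ * (1 + T)) := by
  obtain ⟨G, g1, g2⟩ := h.diff
  have hE := (PP.fam g1).e1 hs hW hA hw
  obtain ⟨C7, c7, h7⟩ := hE 7 le_rfl 1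
  obtain ⟨B, b0, hB⟩ := prod hs hW hS hA hw'
  refine ⟨Fintype.card ι * (B * C7), by positivity, fun n hn R R0 => ?_⟩
  obtain ⟨C, c0, hC⟩ := hE n hn R
  refine ⟨Fintype.card ι * (B * C * (1 + R + 2 ^ (n + 1) * R)), by positivity,
    fun r u u' ρ δ T τ r0 r1 d0 t0 L1 L2 H1 H2 H3 T1 T2 T3 => ?_⟩
  rw [ev_diff g2]
  have k := fun x => hC (x, r) _ R R0 le_rfl (el (p := fun g => Nw W n g R) H1 H2)
  refine tw_mono (tw_sumc (fun x => (H3 x).1.mul (k x).1.1) fun x => (hB n _ _ _ _ hn (H3 x) (k x).1).2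
    _ _ _ _ (nw_mono (H3 x) (by omega) le_rfl) (nw_mono
      (h7 (x, r) _ ρ r0 r1 (el (p := fun g => Nw W 7 g ρ) L1 L2)).1 (by omega) le_rfl) (T3 x)
      ((k x).2 T t0 (el (p := fun g => Tw W (n + 1) g T) T1 T2))) ?_
  have q : B * δ * (C * (R + T)) + 2 ^ (n + 1) * B * δ * (C * R) ≤
      B * C * (1 + R + 2 ^ (n + 1) * R) * δ * (1 + T) := by
    have : 0 ≤ B * C * δ * (1 + R * T + 2 ^ (n + 1) * R * T) := by positivity
    nlinarith
  have := mul_le_mul_of_nonneg_left q (Nat.cast_nonneg (α := ℝ) (Fintype.card ι))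
  nlinarith

theorem PP.d2q {n : ℕ} (hn : 7 ≤ n) :
    ∃ C, 0 ≤ C ∧ ∀ r p p' v ν δ, (∀ x, Nw W n (p x) 1) → (∀ x, Nw W n (p' x) 1) →
      (∀ x, Nw W n ((p + v) x) 1) → (∀ x, Nw W n ((p' + v) x) 1) → (∀ x, Nw W n (v x) ν) →
      (∀ x, Nw W n (p' x - p x) δ) →
      Nw S n (ev F r (p' + v) - ev F r p' - (ev F r (p + v) - ev F r p)) (C * ν * δ) := by
  obtain ⟨G, g1, g2⟩ := h.diff
  obtain ⟨C, c0, hC⟩ := (PP.fam g1).lip hs hW hA hw hn
  obtain ⟨B, b0, hB⟩ := prod hs hW hS hA hw'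
  refine ⟨Fintype.card ι * (2 ^ n * B * C), by positivity,
    fun r p p' v ν δ H1 H2 H3 H4 H5 H6 => ?_⟩
  rw [ev_diff g2, ev_diff g2, ← Finset.sum_sub_distrib, mul_assoc, mul_assoc]
  refine nw_sumc fun x => ?_
  simp only [Pi.add_apply, add_sub_cancel_left, ← mul_sub]
  refine nw_mono (hB n _ _ _ _ hn (H5 x) (hC (x, r) _ _ δ (el (p := fun g => Nw W n g 1) H1 H3)
    (el (p := fun g => Nw W n g 1) H2 H4) fun y => ?_)).1 le_rfl (le_of_eq (by ring))
  cases y with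
  | inl y => exact H6 y
  | inr y => simpa using H6 y

end

end Vale.Agent.P354KN
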