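import Vale.Agent.P354K.Unif

/-!
Weighted L2 norms: sums and products.
-/

open scoped ContDiff
open MeasureTheory Set Filter Topology

namespace Vale.Agent.P354KN

open Vale.Agent.P354H (X3 e pd pdl Sb pd_sm pdl_sm dif pdl_add pdl_smul pdl_neg pdl_zero pdl_sub)
open Vale.Agent.P354K

variable {f g h W W1 W2 W3 : X3 → ℝ} {a b c A : ℝ} {n k : ℕ}

theorem l2_mono (H : L2 g a) (hab : a ≤ b) : L2 g b :=
  ⟨H.1, H.2.1, H.2.2.1.trans hab, H.2.2.2.trans (pow_le_pow_left₀ H.2.2.1 hab 2)⟩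

theorem l2_le (H : L2 g a) (hh : Continuous h) (hA : 0 ≤ A) (hz : ∀ z, |h z| ≤ A * |g z|) :
    L2 h (A * a) := by
  have e : ∀ z, h z ^ 2 ≤ A ^ 2 * g z ^ 2 := fun z => by
    rw [← sq_abs (h z), ← sq_abs (g z), ← mul_pow]
    exact pow_le_pow_left₀ (abs_nonneg _) (hz z) 2
  have i : Integrable fun z => h z ^ 2 := (H.2.1.const_mul (A ^ 2)).mono'
    (hh.pow 2).aestronglyMeasurable
    (ae_of_all _ fun z => (Real.norm_of_nonneg (sq_nonneg _)).trans_le (e z))
  refine ⟨hh, i, mul_nonneg hA H.2.2.1, (integral_mono i (H.2.1.const_mul _) e).trans ?_⟩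
  rw [integral_const_mul, mul_pow]
  exact mul_le_mul_of_nonneg_left H.2.2.2 (sq_nonneg _)

theorem l2_int (H : L2 f a) (H' : L2 g b) : Integrable fun z => f z * g z :=
  (H.2.1.add H'.2.1).mono' (H.1.mul H'.1).aestronglyMeasurable (ae_of_all _ fun z => by
    rw [Real.norm_eq_abs, abs_le]
    constructor <;> simp only [Pi.add_apply] <;> nlinarith [sq_nonneg (f z + g z), sq_nonneg (f z - g z)])

theorem l2_cs (H : L2 f a) (H' : L2 g b) : |∫ z, f z * g z| ≤ a * b := by
  have k : ∀ t : ℝ, 0 ≤ a ^ 2 * (t * t) + (2 * ∫ z, f z * g z) * t + b ^ 2 := fun t => by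
    have e : ∫ z, (t * f z + g z) ^ 2 =
        t ^ 2 * (∫ z, f z ^ 2) + 2 * t * (∫ z, f z * g z) + ∫ z, g z ^ 2 := by
      have i1 := H.2.1.const_mul (t ^ 2)
      have i2 := (l2_int H H').const_mul (2 * t)
      have i3 : Integrable fun z => t ^ 2 * f z ^ 2 + 2 * t * (f z * g z) := i1.add i2
      rw [← integral_const_mul, ← integral_const_mul, ← integral_add i1 i2,
        ← integral_add i3 H'.2.1]
      exact integral_congr_ae (ae_of_all _ fun z => by simp only; ring)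
    have p : 0 ≤ ∫ z, (t * f z + g z) ^ 2 := integral_nonneg fun _ => sq_nonneg _
    have := mul_le_mul_of_nonneg_left H.2.2.2 (sq_nonneg t)
    have := H'.2.2.2
    nlinarith
  have d := discrim_le_zero k
  refine abs_le_of_sq_le_sq' ?_ (mul_nonneg H.2.2.1 H'.2.2.1) |> abs_le.2
  unfold discrim at d
  nlinarith

theorem l2_add (H : L2 f a) (H' : L2 g b) : L2 (fun z => f z + g z) (a + b) := by
  have i3 : Integrable fun z => f z ^ 2 + 2 * (f z * g z) := H.2.1.add ((l2_int H H').const_mul 2)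
  have i : Integrable fun z => f z ^ 2 + 2 * (f z * g z) + g z ^ 2 := i3.add H'.2.1
  have e : (fun z => (f z + g z) ^ 2) = fun z => f z ^ 2 + 2 * (f z * g z) + g z ^ 2 :=
    funext fun z => by ring
  refine ⟨H.1.add H'.1, e ▸ i, add_nonneg H.2.2.1 H'.2.2.1, ?_⟩
  rw [e, integral_add i3 H'.2.1, integral_add H.2.1 ((l2_int H H').const_mul 2), integral_const_mul]
  have := (abs_le.1 (l2_cs H H')).2
  nlinarith [H.2.2.2, H'.2.2.2]

theorem l2_zero (ha : 0 ≤ a) : L2 (fun _ => 0) a := ⟨continuous_const, by simp, ha, by simp [sq_nonneg]⟩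

theorem l2_congr (H : L2 f a) (e : ∀ z, g z = f z) : L2 g a := funext e ▸ H

theorem pd_mul2 (j : Fin 3) (hf : ContDiff ℝ ∞ f) (hg : ContDiff ℝ ∞ g) :
    pd j (f * g) = pd j f * g + f * pd j g := funext fun z => by
  simp only [pd, fderiv_mul (dif hf z) (dif hg z), add_apply, smul_apply, smul_eq_mul, Pi.add_apply,
    Pi.mul_apply]
  ring

theorem pdl_mul (j : Fin 3) (α : List (Fin 3)) (hf : ContDiff ℝ ∞ f) (hg : ContDiff ℝ ∞ g) (z : X3) :
    pdl (j :: α) (f * g) z = pdl α (pd j f * g) z + pdl α (f * pd j g) z := by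
  simp only [pdl]
  rw [pd_mul2 j hf hg, pdl_add α (f := pd j f * g) (g := f * pd j g) ((pd_sm j hf).mul hg)
    (hf.mul (pd_sm j hg))]
  rfl

theorem leib (α : List (Fin 3)) (hf : ContDiff ℝ ∞ f) (hg : ContDiff ℝ ∞ g)
    (H : ∀ β γ : List (Fin 3), β.length + γ.length = α.length →
      L2 (fun z => W z * (pdl β f z * pdl γ g z)) c) :
    L2 (fun z => W z * pdl α (f * g) z) (2 ^ α.length * c) := by
  induction α generalizing f g with
  | nil => exact l2_mono (H [] [] rfl) (by simp)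
  | cons j α ih =>
    refine l2_mono (l2_congr (l2_add (ih (pd_sm j hf) hg fun β γ e => H (j :: β) γ (by simp; omega))
      (ih hf (pd_sm j hg) fun β γ e => H β (j :: γ) (by simp; omega))) fun z => ?_) (le_of_eq ?_)
    · rw [pdl_mul j α hf hg, mul_add]
    · rw [List.length_cons]; ring

theorem leib1 (α : List (Fin 3)) (hf : ContDiff ℝ ∞ f) (hg : ContDiff ℝ ∞ g) (hc : 0 ≤ c)
    (H : ∀ β γ : List (Fin 3), β.length + γ.length = α.length → β ≠ [] →
      L2 (fun z => W z * (pdl β f z * pdl γ g z)) c) :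
    L2 (fun z => W z * (pdl α (f * g) z - f z * pdl α g z)) (2 ^ α.length * c) := by
  induction α generalizing g with
  | nil => exact l2_congr (l2_zero (by simpa using hc)) fun z => by simp [pdl]
  | cons j α ih =>
    refine l2_mono (l2_congr (l2_add (leib α (pd_sm j hf) hg fun β γ e =>
      H (j :: β) γ (by simp; omega) (by simp))
      (ih (pd_sm j hg) fun β γ e => H β (j :: γ) (by simp; omega))) fun z => ?_) (le_of_eq ?_)
    · rw [pdl_mul j α hf hg, pdl]; ring
    · rw [List.length_cons]; ring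

theorem leib2 (j : Fin 3) (α : List (Fin 3)) (hf : ContDiff ℝ ∞ f) (hg : ContDiff ℝ ∞ g)
    (hc : 0 ≤ c) (H : ∀ β γ : List (Fin 3), β.length + γ.length = α.length + 1 → β ≠ [] → γ ≠ [] →
      L2 (fun z => W z * (pdl β f z * pdl γ g z)) c) :
    L2 (fun z => W z * (pdl (j :: α) (f * g) z - f z * pdl (j :: α) g z - pdl (j :: α) f z * g z))
      (2 ^ (α.length + 1) * c) := by
  refine l2_mono (l2_congr (l2_add (leib1 (W := W) α hg (pd_sm j hf) hc fun β γ e ne =>
      l2_congr (H (j :: γ) β (by simp; omega) (by simp) ne) fun z => by rw [pdl]; ring)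
      (leib1 α hf (pd_sm j hg) hc fun β γ e ne => H β (j :: γ) (by simp; omega) ne (by simp)))
      fun z => ?_) (le_of_eq (by ring))
  rw [pdl_mul j α hf hg, mul_comm g, pdl, pdl]; ring

theorem Nw.c0 (H : Nw W k g c) : 0 ≤ c := (H.2 [] (Nat.zero_le _)).2.2.1

theorem Tw.c0 (H : Tw W k g c) : 0 ≤ c := (H (List.replicate k 0) (by simp)).2.2.1

theorem nw_mono (H : Nw W k g a) (hn : n ≤ k) (hab : a ≤ b) : Nw W n g b :=
  ⟨H.1, fun α hα => l2_mono (H.2 α (hα.trans hn)) hab⟩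

theorem tw_mono (H : Tw W k g a) (hab : a ≤ b) : Tw W k g b := fun α hα => l2_mono (H α hα) hab

theorem nw_add (H : Nw W k f a) (H' : Nw W k g b) : Nw W k (f + g) (a + b) :=
  ⟨H.1.add H'.1, fun α hα => l2_congr (l2_add (H.2 α hα) (H'.2 α hα)) fun z => by
    rw [pdl_add α H.1 H'.1, Pi.add_apply, mul_add]⟩

theorem tw_add (hf : ContDiff ℝ ∞ f) (hg : ContDiff ℝ ∞ g) (H : Tw W k f a) (H' : Tw W k g b) :
    Tw W k (f + g) (a + b) := fun α hα => l2_congr (l2_add (H α hα) (H' α hα)) fun z => by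
  rw [pdl_add α hf hg, Pi.add_apply, mul_add]

theorem l2_smul (s : ℝ) (H : L2 f a) : L2 (fun z => s * f z) (|s| * a) :=
  l2_le H (continuous_const.mul H.1) (abs_nonneg s) fun _ => (abs_mul _ _).le

theorem nw_smul (s : ℝ) (H : Nw W k f a) : Nw W k (s • f) (|s| * a) :=
  ⟨H.1.const_smul s, fun α hα => l2_congr (l2_smul s (H.2 α hα)) fun z => by
    rw [pdl_smul α s H.1, Pi.smul_apply, smul_eq_mul, mul_left_comm]⟩

theorem tw_smul (s : ℝ) (hf : ContDiff ℝ ∞ f) (H : Tw W k f a) : Tw W k (s • f) (|s| * a) :=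
  fun α hα => l2_congr (l2_smul s (H α hα)) fun z => by
    rw [pdl_smul α s hf, Pi.smul_apply, smul_eq_mul, mul_left_comm]

theorem nw_neg (H : Nw W k f a) : Nw W k (-f) a := by simpa using nw_smul (-1) H

theorem tw_neg (hf : ContDiff ℝ ∞ f) (H : Tw W k f a) : Tw W k (-f) a := by
  simpa using tw_smul (-1) hf H

theorem nw_zero (ha : 0 ≤ a) : Nw W k 0 a :=
  ⟨contDiff_const, fun α _ => l2_congr (l2_zero ha) fun z => by simp [pdl_zero]⟩

theorem tw_zero (ha : 0 ≤ a) : Tw W k 0 a :=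
  fun α _ => l2_congr (l2_zero ha) fun z => by simp [pdl_zero]

theorem nw_tw (H : Nw W k g a) : Tw W k g a := fun α hα => H.2 α hα.le

theorem nw_succ (H : Nw W k g a) (H' : Tw W (k + 1) g b) : Nw W (k + 1) g (a + b) :=
  ⟨H.1, fun α hα => (Nat.of_le_succ hα).elim
    (fun h => l2_mono (H.2 α h) (le_add_of_nonneg_right (Tw.c0 H')))
    fun h => l2_mono (H' α h) (le_add_of_nonneg_left (Nw.c0 H))⟩

theorem nw_sum {ι : Type} (s : Finset ι) {F : ι → X3 → ℝ} {c : ι → ℝ}
    (H : ∀ i ∈ s, Nw W k (F i) (c i)) : Nw W k (∑ i ∈ s, F i) (∑ i ∈ s, c i) := by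
  classical
  induction s using Finset.induction_on with
  | empty => simpa using nw_zero le_rfl
  | insert i s hi ih =>
    rw [Finset.sum_insert hi, Finset.sum_insert hi]
    exact nw_add (H i (Finset.mem_insert_self _ _)) (ih fun j hj => H j (Finset.mem_insert_of_mem hj))

/-- Change of the weight. -/
theorem l2_w {α : List (Fin 3)} (hg : ContDiff ℝ ∞ g) (h3 : LW W3) (h1 : LW W1) (hA : 0 ≤ A)
    (hw : ∀ z, W3 z ≤ A * W1 z) (H : L2 (fun z => W1 z * pdl α g z) a) :
    L2 (fun z => W3 z * pdl α g z) (A * a) :=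
  l2_le H (h3.sm.continuous.mul (pdl_sm α hg).continuous) hA fun z => by
    rw [abs_mul, abs_mul, abs_of_pos (h3.pos z), abs_of_pos (h1.pos z), ← mul_assoc]
    exact mul_le_mul_of_nonneg_right (hw z) (abs_nonneg _)

/-- One term of a product. -/
theorem term {β γ : List (Fin 3)} (hf : ContDiff ℝ ∞ f) (hg : ContDiff ℝ ∞ g) (h3 : LW W3)
    (h2 : LW W2) (hA : 0 ≤ A) (ha : 0 ≤ a) (hw : ∀ z, W3 z ≤ A * (W1 z * W2 z))
    (H : ∀ z, W1 z * |pdl β f z| ≤ a) (H' : L2 (fun z => W2 z * pdl γ g z) b) :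
    L2 (fun z => W3 z * (pdl β f z * pdl γ g z)) (A * a * b) :=
  l2_le H' (h3.sm.continuous.mul ((pdl_sm β hf).continuous.mul (pdl_sm γ hg).continuous))
    (mul_nonneg hA ha) fun z => by
    rw [abs_mul, abs_mul, abs_mul, abs_of_pos (h3.pos z), abs_of_pos (h2.pos z)]
    calc W3 z * (|pdl β f z| * |pdl γ g z|) ≤ A * (W1 z * W2 z) * (|pdl β f z| * |pdl γ g z|) :=
          mul_le_mul_of_nonneg_right (hw z) (by positivity)
      _ = A * (W1 z * |pdl β f z|) * (W2 z * |pdl γ g z|) := by ring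
      _ ≤ _ := mul_le_mul_of_nonneg_right (mul_le_mul_of_nonneg_left (H z) hA)
          (mul_nonneg (h2.pos z).le (abs_nonneg _))

/-- Multiplication by a bounded coefficient. -/
theorem coef (h : LW W) (hf : ContDiff ℝ ∞ f) (H : Sb k f a) (H' : Nw W k g b) :
    Nw W k (f * g) (2 ^ k * a * b) := by
  refine ⟨hf.mul H'.1, fun α hα => l2_mono (leib (c := 1 * a * b) α hf H'.1 fun β γ e =>
    term (W1 := fun _ => 1) hf H'.1 h h zero_le_one H.nonneg (by simp)
      (fun z => by simpa using H β (by omega) z) (H'.2 γ (by omega))) ?_⟩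
  rw [one_mul, mul_assoc]
  exact mul_le_mul_of_nonneg_right (pow_le_pow_right₀ one_le_two hα) (mul_nonneg H.nonneg (Nw.c0 H'))

theorem coefT {a' : ℝ} (h : LW W) (hf : ContDiff ℝ ∞ f) (H0 : Sb 0 f a') (H : Sb (k + 1) f a)
    (H' : Nw W k g b) (HT : Tw W (k + 1) g c) :
    Tw W (k + 1) (f * g) (a' * c + 2 ^ (k + 1) * a * b) := fun α hα => by
  have t1 := term (β := []) (W1 := fun _ => 1) hf H'.1 h h zero_le_one H0.nonneg (by simp)
    (fun z => by simpa using H0 [] le_rfl z) (HT α hα)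
  have t2 := leib1 (c := 1 * a * b) α hf H'.1 (by simpa using mul_nonneg H.nonneg (Nw.c0 H'))
    fun β γ e ne => term (W1 := fun _ => 1) hf H'.1 h h zero_le_one H.nonneg (by simp)
      (fun z => by simpa using H β (by omega) z)
      (H'.2 γ (by have := List.length_pos_iff.2 ne; omega))
  exact l2_mono (l2_congr (l2_add t1 t2) fun z => by rw [pdl]; ring) (le_of_eq (by rw [hα]; ring))

/-- The product of two functions of the class of W1 with values in the class of W3. -/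
theorem prod (hs : SOBW) (h1 : LW W1) (h3 : LW W3) (hA : 0 ≤ A)
    (hw : ∀ z, W3 z ≤ A * (W1 z * W1 z)) : ∃ C, 0 ≤ C ∧ ∀ n f g a b, 7 ≤ n → Nw W1 n f a →
      Nw W1 n g b → Nw W3 n (f * g) (2 ^ n * C * a * b) ∧ ∀ a' b' s t, Nw W1 3 f a' → Nw W1 3 g b' →
        Tw W1 (n + 1) f s → Tw W1 (n + 1) g t →
        Tw W3 (n + 1) (f * g) (C * a' * t + C * b' * s + 2 ^ (n + 1) * C * a * b) := by
  obtain ⟨C, c0, hC⟩ := hs W1 h1
  refine ⟨A * C, mul_nonneg hA c0, fun n f g a b hn H H' => ?_⟩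
  have T : ∀ β γ : List (Fin 3), β.length ≤ n → γ.length ≤ n → β.length + γ.length ≤ n + 1 →
      L2 (fun z => W3 z * (pdl β f z * pdl γ g z)) (A * C * a * b) := fun β γ e1 e2 e3 => by
    by_cases k : β.length + 3 ≤ n
    · exact l2_mono (term H.1 H'.1 h3 h1 hA (mul_nonneg c0 (Nw.c0 H)) hw
        (hC _ f a (nw_mono H k le_rfl) β le_rfl) (H'.2 γ e2)) (le_of_eq (by ring))
    · exact l2_mono (l2_congr (term H'.1 H.1 h3 h1 hA (mul_nonneg c0 (Nw.c0 H')) hw
        (hC _ g b (nw_mono H' (by omega) le_rfl) γ le_rfl) (H.2 β e1)) fun z => by ring)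
        (le_of_eq (by ring))
  have p : 0 ≤ A * C * a * b := (T [] [] (by simp) (by simp) (by simp)).2.2.1
  refine ⟨⟨H.1.mul H'.1, fun α hα => l2_mono (leib α H.1 H'.1 fun β γ e =>
    T β γ (by omega) (by omega) (by omega)) ?_⟩, fun a' b' s t l l' HT HT' α hα => ?_⟩
  · exact (mul_le_mul_of_nonneg_right (pow_le_pow_right₀ one_le_two hα) p).trans_eq (by ring)
  · obtain ⟨j, α, rfl⟩ := List.exists_cons_of_length_eq_add_one hα
    have t1 := term H.1 H'.1 h3 h1 hA (mul_nonneg c0 (Nw.c0 l)) hw (hC 0 f a' l [] le_rfl) (HT' _ hα)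
    have t2 := term H'.1 H.1 h3 h1 hA (mul_nonneg c0 (Nw.c0 l')) hw (hC 0 g b' l' [] le_rfl) (HT _ hα)
    have e : α.length = n := by simpa using hα
    have t3 := leib2 j α H.1 H'.1 p fun β γ e' n1 n2 => by
      have := List.length_pos_iff.2 n1
      have := List.length_pos_iff.2 n2
      exact T β γ (by omega) (by omega) (by omega)
    exact l2_mono (l2_congr (l2_add (l2_add t1 t2) t3) fun z => by simp only [pdl]; ring)
      (le_of_eq (by rw [e]; ring))

end Vale.Agent.P354KN
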